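import Mathlib
import Vale.Agent.P047.Cor
import Vale.Agent.P047.Expo

open Finset Filter Topology P047

namespace Vale.Agent.Results.P047.Growth

/-- (1) an upper bound for the level-one sum, better than `d` by a constant factor;
(2) `M` is supermultiplicative; (3) for every exponent `α` either `M d ≤ d ^ α` for all `d`, or
`M d ≥ c d ^ β` for all `d`, with some `β > α`; (4) the growth exponent `γ` of `M` exists and
`M d ≤ d ^ γ`; (5) the strong form `∑ fhat({i}) ≤ √d` of the question is equivalent to its weak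
form `∑ fhat({i}) ≤ C √d`, to `∑ fhat({i}) ≤ C_ε d ^ (1/2 + ε)` for every `ε > 0`, and to
`γ ≤ 1/2`. -/
theorem result :
    (∀ (d n : ℕ) (f : (Fin n → Bool) → ℝ), 2 ≤ d → IsBoolean f → DegLE f d →
      ∑ i, fhat f {i} ≤ d * (1 - (16 / Real.pi ^ 2) /
        (Real.exp (2 * Real.pi * d / (2 * d - Real.pi)) + 1))) ∧
    (∀ d : ℕ, 100 ≤ d → M d ≤ 0.937 * d) ∧
    (∀ ε : ℝ, 0 < ε → ∀ᶠ d : ℕ in atTop,
      M d ≤ (1 - (16 / Real.pi ^ 2) / (Real.exp Real.pi + 1) + ε) * d) ∧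
    (∀ d : ℕ, BddAbove (vals d)) ∧
    (∀ d1 d2 : ℕ, 1 ≤ d1 → 1 ≤ d2 → M d1 * M d2 ≤ M (d1 * d2)) ∧
    (∀ α : ℝ, (∀ d : ℕ, 1 ≤ d → M d ≤ (d : ℝ) ^ α) ∨
      ∃ β, α < β ∧ ∃ c, 0 < c ∧ ∀ d : ℕ, 1 ≤ d → c * (d : ℝ) ^ β ≤ M d) ∧
    (∃ γ : ℝ, 0 ≤ γ ∧ γ ≤ 1 ∧
      Tendsto (fun d : ℕ => Real.log (M d) / Real.log d) atTop (𝓝 γ) ∧
      (∀ d : ℕ, 1 ≤ d → M d ≤ (d : ℝ) ^ γ) ∧
      ((∀ d : ℕ, 1 ≤ d → ∀ (n : ℕ) (f : (Fin n → Bool) → ℝ), IsBoolean f → DegLE f d →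
        ∑ i, fhat f {i} ≤ Real.sqrt d) ↔ γ ≤ 1 / 2)) ∧
    ((∀ d : ℕ, 1 ≤ d → ∀ (n : ℕ) (f : (Fin n → Bool) → ℝ), IsBoolean f → DegLE f d →
        ∑ i, fhat f {i} ≤ Real.sqrt d) ↔
      ∃ C : ℝ, ∀ d : ℕ, 1 ≤ d → ∀ (n : ℕ) (f : (Fin n → Bool) → ℝ), IsBoolean f → DegLE f d →
        ∑ i, fhat f {i} ≤ C * Real.sqrt d) ∧
    ((∀ d : ℕ, 1 ≤ d → ∀ (n : ℕ) (f : (Fin n → Bool) → ℝ), IsBoolean f → DegLE f d →
        ∑ i, fhat f {i} ≤ Real.sqrt d) ↔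
      ∀ ε : ℝ, 0 < ε → ∃ C : ℝ, ∀ d : ℕ, 1 ≤ d → ∀ (n : ℕ) (f : (Fin n → Bool) → ℝ),
        IsBoolean f → DegLE f d → ∑ i, fhat f {i} ≤ C * (d : ℝ) ^ (1 / 2 + ε)) := by
  have hM : ∀ d : ℕ, 2 ≤ d → M d ≤ d * (1 - (16 / Real.pi ^ 2) /
        (Real.exp (2 * Real.pi * d / (2 * d - Real.pi)) + 1)) := fun d hd => by
    apply csSup_le ⟨0, zero_mem_vals d⟩
    rintro s ⟨n, f, _, hf, hdeg, rfl⟩
    exact main_bound hf hd hdeg
  have hstrong : (∀ d : ℕ, 1 ≤ d → ∀ (n : ℕ) (f : (Fin n → Bool) → ℝ), IsBoolean f → DegLE f d →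
        ∑ i, fhat f {i} ≤ Real.sqrt d) ↔ ∀ d : ℕ, 1 ≤ d → M d ≤ (d : ℝ) ^ (1 / 2 : ℝ) := by
    constructor
    · intro h d hd
      rw [← Real.sqrt_eq_rpow]
      exact (M_le_iff (Real.sqrt_nonneg _)).2 (h d hd)
    · intro h d hd
      have := h d hd
      rw [← Real.sqrt_eq_rpow] at this
      exact (M_le_iff (Real.sqrt_nonneg _)).1 this
  obtain ⟨γ, h0, h1, h2, h3, h4⟩ := exists_exponent
  have hC : ∀ (C α : ℝ), (∀ d : ℕ, 1 ≤ d → ∀ (n : ℕ) (f : (Fin n → Bool) → ℝ), IsBoolean f →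
      DegLE f d → ∑ i, fhat f {i} ≤ C * (d : ℝ) ^ α) → ∀ d : ℕ, 1 ≤ d → M d ≤ C * (d : ℝ) ^ α := by
    intro C α h d hd
    apply csSup_le ⟨0, zero_mem_vals d⟩
    rintro s ⟨n, f, _, hf, hdeg, rfl⟩
    exact h d hd n f hf hdeg
  refine ⟨fun d n f hd hf hdeg => main_bound hf hd hdeg, fun d hd => ?_, fun ε hε => ?_, bdd_vals,
    fun d1 d2 _ h2 => M_mul_le h2, dichotomy, ⟨γ, h0, h1, h2, h3, ?_⟩, ?_, ?_⟩
  · have h0 : (0 : ℝ) ≤ d := Nat.cast_nonneg d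
    calc M d ≤ _ := hM d (by omega)
      _ ≤ d * 0.937 := mul_le_mul_of_nonneg_left (const_le_aux hd) h0
      _ = 0.937 * d := mul_comm _ _
  · have h1 : ∀ᶠ d : ℕ in atTop, 1 - (16 / Real.pi ^ 2) /
        (Real.exp (2 * Real.pi * d / (2 * d - Real.pi)) + 1)
        < 1 - (16 / Real.pi ^ 2) / (Real.exp Real.pi + 1) + ε :=
      const_tendsto.eventually (gt_mem_nhds (by linarith))
    filter_upwards [h1, eventually_ge_atTop 2] with d hd1 hd2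
    have h0 : (0 : ℝ) ≤ d := Nat.cast_nonneg d
    calc M d ≤ _ := hM d hd2
      _ ≤ d * (1 - (16 / Real.pi ^ 2) / (Real.exp Real.pi + 1) + ε) :=
        mul_le_mul_of_nonneg_left hd1.le h0
      _ = _ := mul_comm _ _
  · rw [hstrong]
    exact h4 (1 / 2)
  · constructor
    · intro h
      exact ⟨1, fun d hd n f hf hdeg => by rw [one_mul]; exact h d hd n f hf hdeg⟩
    · rintro ⟨C, h⟩
      rw [hstrong]
      apply M_le_rpow_of
      intro ε hε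
      refine ⟨max C 0, fun d hd => ?_⟩
      have hd1 : (1 : ℝ) ≤ d := by exact_mod_cast hd
      have e1 : M d ≤ C * (d : ℝ) ^ (1 / 2 : ℝ) := by
        apply hC C (1 / 2) _ d hd
        intro d hd n f hf hdeg
        rw [← Real.sqrt_eq_rpow]
        exact h d hd n f hf hdeg
      calc M d ≤ C * (d : ℝ) ^ (1 / 2 : ℝ) := e1
        _ ≤ max C 0 * (d : ℝ) ^ (1 / 2 : ℝ) :=
          mul_le_mul_of_nonneg_right (le_max_left _ _) (Real.rpow_nonneg (by linarith) _)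
        _ ≤ max C 0 * (d : ℝ) ^ (1 / 2 + ε) :=
          mul_le_mul_of_nonneg_left (Real.rpow_le_rpow_of_exponent_le hd1 (by linarith))
            (le_max_right _ _)
  · constructor
    · intro h ε hε
      refine ⟨1, fun d hd n f hf hdeg => ?_⟩
      rw [one_mul]
      refine (h d hd n f hf hdeg).trans ?_
      rw [Real.sqrt_eq_rpow]
      exact Real.rpow_le_rpow_of_exponent_le (by exact_mod_cast hd) (by linarith)
    · intro h
      rw [hstrong]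
      apply M_le_rpow_of
      intro ε hε
      obtain ⟨C, h'⟩ := h ε hε
      exact ⟨C, hC C _ h'⟩

end Vale.Agent.Results.P047.Growth
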