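import Mathlib
import Vale.Agent.P047.Cor

open Finset Filter P047

namespace Vale.Agent.Results.P047.LinearUpper

/-- the values of `∑ fhat({i})` over all `n ≥ 1` and all Boolean functions of degree at most `d` -/
def vals (d : ℕ) : Set ℝ :=
  {s | ∃ (n : ℕ) (f : (Fin n → Bool) → ℝ), 1 ≤ n ∧ IsBoolean f ∧ DegLE f d ∧
    s = ∑ i, fhat f {i}}

/-- the quantity `M(d)` of the problem -/
noncomputable def M (d : ℕ) : ℝ := sSup (vals d)

theorem vals_nonempty (d : ℕ) : (vals d).Nonempty := by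
  refine ⟨_, 1, fun _ => 1, le_rfl, fun _ => Or.inl rfl, ?_, rfl⟩
  intro S hS
  rw [fhat_of_expand (fun _ => (1 : ℝ)) (fun S => if S = ∅ then 1 else 0)]
  · have : S ≠ ∅ := by
      rintro rfl
      simp at hS
    simp [this]
  · intro x
    simp [chi]

theorem vals_le {d : ℕ} (hd : 2 ≤ d) : ∀ s ∈ vals d, s ≤ d * (1 - (16 / Real.pi ^ 2) /
    (Real.exp (2 * Real.pi * d / (2 * d - Real.pi)) + 1)) := by
  rintro s ⟨n, f, _, hf, hdeg, rfl⟩
  exact main_bound hf hd hdeg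

/-- For every `d ≥ 2` every Boolean function of degree at most `d` has
`∑ fhat({i}) ≤ d (1 - (16/π²)/(exp(2πd/(2d-π)) + 1))`; hence `M(d)` is finite and satisfies the
same bound, `M(d) < d` for all `d ≥ 2`, `M(d) ≤ 0.937 d` for all `d ≥ 100`, and
`limsup M(d)/d ≤ 1 - (16/π²)/(e^π + 1) < 0.9329`. -/
theorem result :
    (∀ (d n : ℕ) (f : (Fin n → Bool) → ℝ), 2 ≤ d → IsBoolean f → DegLE f d →
      ∑ i, fhat f {i} ≤ d * (1 - (16 / Real.pi ^ 2) /
        (Real.exp (2 * Real.pi * d / (2 * d - Real.pi)) + 1))) ∧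
    (∀ d : ℕ, 2 ≤ d → BddAbove (vals d) ∧ M d < d ∧ M d ≤ d * (1 - (16 / Real.pi ^ 2) /
        (Real.exp (2 * Real.pi * d / (2 * d - Real.pi)) + 1))) ∧
    (∀ d : ℕ, 100 ≤ d → M d ≤ 0.937 * d) ∧
    (∀ ε : ℝ, 0 < ε → ∀ᶠ d : ℕ in atTop,
      M d ≤ (1 - (16 / Real.pi ^ 2) / (Real.exp Real.pi + 1) + ε) * d) := by
  have hM : ∀ d : ℕ, 2 ≤ d → M d ≤ d * (1 - (16 / Real.pi ^ 2) /
        (Real.exp (2 * Real.pi * d / (2 * d - Real.pi)) + 1)) := fun d hd =>
    csSup_le (vals_nonempty d) (vals_le hd)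
  refine ⟨fun d n f hd hf hdeg => main_bound hf hd hdeg, fun d hd => ⟨⟨_, vals_le hd⟩, ?_, hM d hd⟩,
    fun d hd => ?_, fun ε hε => ?_⟩
  · have h0 : (0 : ℝ) < d := by
      have : (2 : ℝ) ≤ d := by exact_mod_cast hd
      linarith
    calc M d ≤ _ := hM d hd
      _ < d * 1 := mul_lt_mul_of_pos_left (const_lt_one hd) h0
      _ = d := mul_one _
  · have h0 : (0 : ℝ) ≤ d := Nat.cast_nonneg d
    calc M d ≤ _ := hM d (by omega)
      _ ≤ d * 0.937 := mul_le_mul_of_nonneg_left (const_le_aux hd) h0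
      _ = 0.937 * d := mul_comm _ _
  · have h1 : ∀ᶠ d : ℕ in atTop, 1 - (16 / Real.pi ^ 2) /
        (Real.exp (2 * Real.pi * d / (2 * d - Real.pi)) + 1)
        < 1 - (16 / Real.pi ^ 2) / (Real.exp Real.pi + 1) + ε :=
      const_tendsto.eventually (gt_mem_nhds (by linarith))
    filter_upwards [h1, eventually_ge_atTop 2] with d hd1 hd2
    have h0 : (0 : ℝ) ≤ d := Nat.cast_nonneg d
    calc M d ≤ _ := hM d hd2
      _ ≤ d * (1 - (16 / Real.pi ^ 2) / (Real.exp Real.pi + 1) + ε) :=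
        mul_le_mul_of_nonneg_left hd1.le h0
      _ = _ := mul_comm _ _

end Vale.Agent.Results.P047.LinearUpper
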